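import Vale.Agent.P270G.Fyn49

/-!
# P270K: slicing by a free null class
-/

open Set
open Vale.Agent.P272.K Vale.Agent.P285.H281.FD Vale.Agent.P281Z Vale.Agent.P280Z
open Vale.Agent.P277.HD (pull)
open Vale.Agent.P285N Vale.Agent.P285W Vale.Agent.P285W.J Vale.Agent.P285W.Bs
open Vale.Agent.P285S.B2 (Zr Nu)
open Vale.Agent.P270F.Tk
open Vale.Agent.P285S.E3.HilH (nf_t1)
open Vale.Agent.P270G

namespace Vale.Agent.P270K

theorem fyw (sl : P270F.Mg.SLT) {T : CT} (hT : T.OK) {d : ℕ} {κ ι : Type} [Fintype κ]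
    {B : Pr (d + 1 + 1) κ ι} {m : κ → ℤ} {N : ℕ} {L Λ W : Bd B.Z.X} {ν : ℕ} {α : T.H B.Z}
    {S : Set B.Z.X} (hν : ν ≤ d) (h : Dn T B m N L Λ (ν + 1))
    (rf : Rf T B.Z (T.c1 B.Z L) (ν + 1) α S) (lW : IsLB (d + 1 + 1) W) (bW : Bpf (d + 1 + 1) W)
    (nW : T.c1 B.Z W ≠ 0) (h0 : T.int B.Z (T.c1 B.Z W * zz T B.Z L Λ (ν + 1)) = 0) :
    ∃ (κ' ι' : Type) (_ : Fintype κ') (C : Pr (d + 1) κ' ι') (m' : κ' → ℤ) (N' : ℕ)
      (L' Λ' : Bd C.Z.X) (α' : T.H C.Z) (S' : Set C.Z.X), Dn T C m' N' L' Λ' ν ∧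
      Rf T C.Z (T.c1 C.Z L') ν α' S' := by
  obtain ⟨j, rfl⟩ := Nat.exists_eq_add_of_le hν
  have cB : Cp B.Z := ⟨h.cw.ok.conn, h.cw.ok.prj⟩
  have := cB.conn
  have fb := h.fb
  obtain ⟨hg, hb⟩ := Fyn49.dm hT cB.conn fb
  have lL := h.lb
  have fL := h.nef
  have u := h.nu
  have ej : ν + j + 1 - (ν + 1) = j := by omega
  have hl : Nq T B.Z _ := ⟨nf_of hT cB.prj lL fL, _, lL, rfl⟩
  have hh := bf_nf hT ⟨_, lW, bW, rfl⟩
  have dl := fun i => dg_mul hT (nf_dg hT hh) (dg_pow hT (nf_dg hT hl.1) i)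
  rw [zz, ej] at h0
  have h1 := zr_dm hT hg.1 hb (hh.mn.mul (hl.1.mn.pow (ν + 1))) (dl _) (j := j) (by omega)
    (by rwa [mul_assoc])
  have h2 := sq_zero hT cB hl hh u (by omega) h1
  have my := (hl.mz.pow ν).mul (hg.mz.pow j)
  have p1 := pos_dm hT hg.1 hb (hh.mn.mul (hl.1.mn.pow ν)) (dl _) (j := j + 1) (by omega)
    fun q => nW (eq_zero hT cB hl hh (by omega) u.1 q)
  have p2 := pos_dm hT hg.1 hb ((hl.1.mn.pow (ν + 1)).mul rf.nef.mn)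
    (dg_mul hT (dg_pow hT (nf_dg hT hl.1) _) (nf_dg hT rf.nef)) (j := j) (by omega) rf.ne
  have p3 := prp hT cB my (hl.t1 hT) (nf_t1 hT hh) (nf_t1 hT rf.nef) (hg.t1 hT)
    (by rw [← u.2 _ (hg.1.mn.pow j)]; congr 1; ring)
    (by rw [← h1 _ (hg.1.mn.pow j)]; congr 1; ring)
    (by rw [← h2 _ (hg.1.mn.pow j), mul_assoc _ (_ ^ ν)])
  obtain ⟨H, hH, pH, D, τ, hD, eD, hτ, x₀, hx⟩ := fb.big
  obtain ⟨a, a0, ea⟩ := h.cw.tor
  obtain ⟨κ', ι', _, C, m', N', i, hi, cw, im, ng, ps, le, nn⟩ := sl _ T hT κ ι B m N W a 0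
    (S ∪ {x | ¬ NZ D τ x}) (T.c1 B.Z L ^ ν * α * T.c1 B.Z Λ ^ j) h.cw.ok h.cw.klt lW
    bW a0 (by rw [ea, zero_smul]) (rf.neg.union
      ((Un.an_z hD hτ).thin fun k => (k ▸ mem_univ x₀ : x₀ ∈ {x | ¬ NZ D τ x}) hx).neg)
    ((mn_int hT (hh.mn.mul (((hl.1.mn.pow ν).mul rf.nef.mn).mul (hg.1.mn.pow j)))).lt_of_ne'
      fun q => (mul_pos p2 p1).ne' (by
        refine .trans ?_ (p3.trans (mul_eq_zero_of_right _ (.trans ?_ q)))
        · congr 2 <;> ring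
        · congr 1; ring))
  have := cw.ok.conn
  obtain ⟨y, hy⟩ := ng.dense.nonempty
  have fb' : Fb C.Z (pull i Λ) := ⟨hi.lb fb.lb, Un.bpf_pull hi fb.bpf, pull i H,
    hi.lb hH, hT.kp _ _ (hi.lb hH) (hT.c1.pull hi H hH ▸ kc_pull hT hi im (hT.c1.pos _ H hH pH)),
    pull i D, _, hi.lb hD, by rw [cls_pull hi hD, eD, map_sub, cls_pull hi fb.lb, cls_pull hi hH],
    hi.sec hτ, y, not_not.1 fun k => hy (Or.inr k)⟩
  obtain ⟨hg', hb'⟩ := Fyn49.dm hT cw.ok.conn fb'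
  have e1 := hT.c1.pull hi _ lL
  have e2 := hT.c1.pull hi _ fb.lb
  have n1 := nf_pull hT hi hl.1
  have nα := nf_pull hT hi rf.nef
  have ne : ¬ Zr T C.Z (T.pull hi (T.c1 B.Z L) ^ ν * T.pull hi α) :=
    fun q => ps.ne' (by simpa only [map_mul, map_pow, e2] using q _ (hg'.1.mn.pow j))
  refine ⟨κ', ι', inferInstance, C, m', N', pull i L, _, _, i ⁻¹' S,
    ⟨cw, hi.lb lL, P285S.Tp.nf_comp hi cB.prj lL fL, ?_, fb', fun a ha => ?_⟩, nα, e1 ▸ ne,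
    ng.mono fun _ q => .inl q, fun a b U p hp x e cU g1 g2 g3 => ?_⟩
  · rw [e1]
    refine ⟨fun q => ne (zr_mul q nα.mn), zr_dm hT hg'.1 hb' (n1.mn.pow _)
      (dg_pow hT (nf_dg hT n1) _) (j := j) (by omega) ((mn_int hT ((n1.mn.pow _).mul
        (hg'.1.mn.pow j))).antisymm' ?_)⟩
    simpa only [map_mul, map_pow, e2, h0] using le _ ((hl.1.mn.pow (ν + 1)).mul (hg.1.mn.pow j))
  · rw [e1, e2, Nat.add_sub_cancel_left, ← map_pow, ← map_pow, ← map_mul]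
    exact nn _ my.mn (by rw [← h2 _ (hg.1.mn.pow j)]; congr 1; ring) (fun b hb' O σ hO =>
      weak hT cB hl hg hb hh u (by omega) h1 ⟨hT.tp.c1 _ _ hO.lb, hT.c1.deg _ _⟩
        (by simpa only [ej] using h.neg b hb' O σ hO)) a ha
  · have q := hT.rg.pull_comp hp hi (hi.comp hp) fun _ => rfl
    rw [e1, ← q] at g3
    rw [← q]
    exact rf.nt a b U _ _ x e cU g1 g2 g3

end Vale.Agent.P270K
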