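import Vale.Agent.P270K.Stmt
import Vale.Agent.P270G.Dn0
import Vale.Agent.P285N.Tp.Genm
import Vale.Agent.P285N.Tp.Lrk2
import Vale.Agent.P285N.D.One
import Vale.Agent.P285S.Tp.Thr

/-!
# P270K: the moving part of a pencil
-/

open scoped Topology
open Set Filter
open Vale.Agent.P272.K Vale.Agent.P285.H281.FD Vale.Agent.P281Z Vale.Agent.P280Z
open Vale.Agent.P277Z (Hol)
open Vale.Agent.P277Z.Slc (LEq Snc lin)
open Vale.Agent.P277.HD (pull)
open Vale.Agent.P285N Vale.Agent.P285N.Tp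
open Vale.Agent.P281Z.En.Mg (idl mem_Z)
open Vale.Agent.P270K.St (Pencil)
open Vale.Agent.P270G (GdfH.nz)
open Vale.Agent.P285S.Ca (EfH.thin_nz)

noncomputable section

namespace Vale.Agent.P270K

variable {n : ℕ} {V Y : Mf n} {L : Bd V.X}

theorem sec2 {s s' : L.ι → V.X → ℂ} (h : IsSec n L s) (h' : IsSec n L s') (a b : ℂ) :
    IsSec n L fun i x => a * s i x + b * s' i x :=
  ⟨fun i e x he hi => (contDiffAt_const.mul (h.holo i e x he hi)).add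
    (contDiffAt_const.mul (h'.holo i e x he hi)), fun i j x hi hj => by
      rw [h.change i j x hi hj, h'.change i j x hi hj]; ring⟩

theorem pen_up {π : Y.X → V.X} {S : Set V.X} (hπ : Modif n π S) (h : Pencil n L) :
    Pencil n (pull π L) :=
  let ⟨_, _, h1, h2, h3⟩ := h
  ⟨_, _, hπ.hol.sec h1, hπ.hol.sec h2, fun a b k =>
    let ⟨i, x, k1, k2⟩ := h3 a b k
    let ⟨y, e⟩ := hπ.surj x
    ⟨i, y, by subst e; exact k1, by subst e; exact k2⟩⟩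

theorem pen_ne {T : CT} (hF : FLC T) [ConnectedSpace V.X] (pV : V.Prj) (hL : IsLB n L)
    (h : Pencil n L) : T.c1 V L ≠ 0 := fun e => by
  obtain ⟨s, s', h1, h2, h3⟩ := h
  obtain ⟨y⟩ : Nonempty V.X := inferInstance
  obtain ⟨c, hc⟩ := hL.cover y
  obtain ⟨a, b, k1, k2⟩ : ∃ a b : ℂ, (a ≠ 0 ∨ b ≠ 0) ∧ a * s c y + b * s' c y = 0 := by
    by_cases k : s c y = 0
    · exact ⟨1, 0, .inl one_ne_zero, by simp [k]⟩
    · exact ⟨s' c y, -s c y, .inr (neg_ne_zero.2 k), by ring⟩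
  have k3 := sec2 h1 h2 a b
  obtain ⟨x, hx⟩ := GdfH.nz hL k3 (h3 a b k1)
  exact D.One.nz hL ((hF V L pV.kah hL).1 e) (j := 1) (s := fun i x => a * s i x + b * s' i x)
    ⟨k3.holo, fun i j z hi hj => (k3.change i j z hi hj).trans
      (congrArg (· * _) (pow_one _).symm)⟩ hx y c hc k2

theorem mov [ConnectedSpace V.X] (pV : V.Prj) (hL : IsLB n L) (h : Pencil n L) :
    ∃ (Y : Mf n) (π : Y.X → V.X) (S : Set V.X) (W : Bd Y.X), Modif n π S ∧ Y.Prj ∧ IsLB n W ∧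
      Bpf n W ∧ Pencil n W ∧ P285S.Ef Y (cls n (pull π L) - cls n W) := by
  obtain ⟨s₀, s₁, h0, h1, h2⟩ := h
  have z0 : P285Z.St.NonZero L s₀ := by simpa using h2 1 0 (.inl one_ne_zero)
  have hs' : ∀ j : Fin 2, IsSec n L (![s₀, s₁] j) := Fin.forall_fin_two.2 ⟨h0, h1⟩
  obtain ⟨W, π, B, p, G, f, hπ, pW, hG, -, -, -, hm⟩ := Lr.reso pV hL h0
    (Lr.thin_Z (s := fun _ : Fin (0 + 1) => s₀) hL (fun _ => h0) ⟨0, z0⟩) hL hs' ⟨0, z0⟩
  have := hπ.conn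
  have hD := hπ.hol.lb hL
  let s : Fin 2 → (pull π L).ι → W.X → ℂ := fun j a z => ![s₀, s₁] j a (π z)
  have hs : ∀ j, IsSec n (pull π L) (s j) := fun j => hπ.hol.sec (hs' j)
  have hy := Hyp.of_snc hG
  obtain ⟨O, σ, hO⟩ := hy.exists_div
  have lO := fun l => (hO l).lb
  let k : Fin p → ℤ := fun l => -(f l : ℤ)
  have hM : IsLB n ((pull π L).mul (pull id (lin O k))) := lb_mul hD (lb_lin lO k)
  have e : ∀ {ζ : Fin p → ℂ}, (∀ l, ζ l ≠ 0) → (∏ l, ζ l ^ k l) * ∏ l, ζ l ^ f l = 1 :=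
    fun h => by
      rw [← Finset.prod_mul_distrib]
      exact Finset.prod_eq_one fun l _ => by
        rw [zpow_neg, zpow_natCast, inv_mul_cancel₀ (pow_ne_zero _ (h l))]
  have m : ∀ y a, y ∈ (pull π L).U a → ∀ ζ : Fin p → W.X → ℂ, (∀ l, LEq n (G l) y (ζ l)) →
      ∃ c : Fin 2 → W.X → ℂ, (∀ j, Hol n (c j) y) ∧ (∃ j, c j y ≠ 0) ∧
        ∀ j, ∀ᶠ z in 𝓝 y, z ∈ off G → c j z = s j a z * ∏ l, ζ l z ^ k l := by
    intro y a ha ζ hζ
    obtain ⟨c, c1, c2, c3⟩ := hm y a ha ζ hζ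
    refine ⟨c, c1, c2, fun j => ?_⟩
    filter_upwards [c3, off_iff hζ] with z k1 k2 hz
    have k3 : s j a z = _ := k1 j
    rw [k3, mul_assoc, mul_comm (∏ _, _), e (k2.1 hz), mul_one]
  have sp : ∀ j, SecP n n id univ (pull π L) G (fun l => k l) (s j) := fun j =>
    ⟨fun a x _ ha _ => sec_hol (hs j) ha, fun a b x _ ha hb _ => (hs j).change a b x ha hb,
      fun a x _ ha ζ hζ =>
        let ⟨_, c1, _, c3⟩ := m x a ha ζ hζ
        bdP_of_ext (c1 j) hζ (c3 j) ζ hζ⟩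
  choose t t1 t2 t3 using fun j =>
    (sp j).twist holM_id (trv_id hy) hG hO hD isOpen_univ (k := k) fun l => lt_add_one _
  have ht : ∀ j, IsSec n _ (t j) := fun j =>
    isSec_of (fun a x => t1 j a x trivial) fun a b x => t2 j a b x trivial
  have dv := div_mon hO f
  refine ⟨W, π, B, _, hπ, pW, hM, fun x => ?_, ⟨t 0, t 1, ht 0, ht 1, fun a b hab => ?_⟩, _, _,
    dv.lb, ?_, dv.sec, GdfH.nz dv.lb dv.sec dv.nz⟩
  · obtain ⟨⟨a, c⟩, ha, hc⟩ := hM.cover x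
    obtain ⟨b, b1, ⟨j, b2⟩, b3⟩ := m x a ha _ fun l => (hO l).leq (c l) x (hc l)
    refine ⟨t j, ht j, (nz_iff hM (fun a b => t2 j a b x trivial) (a := (a, c)) ⟨ha, hc⟩).2 ?_⟩
    rw [← (hy.eq (b1 j) (t1 j (a, c) x trivial ⟨ha, hc⟩) ?_).self_of_nhds]
    · exact b2
    · filter_upwards [b3 j, lb_near hM (a := (a, c)) ⟨ha, hc⟩] with z k1 k2 hz
      exact (k1 hz).trans (t3 j a c z trivial k2.1 k2.2 hz).symm
  · have k1 := sec2 (hs 0) (hs 1) a b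
    obtain ⟨i, x, x1, x2⟩ := h2 a b hab
    obtain ⟨x, rfl⟩ := hπ.surj x
    have k2 := (EfH.thin_nz hD k1 (GdfH.nz hD k1 ⟨i, x, x1, x2⟩)).dense
    obtain ⟨y, y1, y2⟩ := (k2.inter_of_isOpen_right hy.dense hy.isOpen).nonempty
    obtain ⟨⟨a', c⟩, ha, hc⟩ := hM.cover y
    refine ⟨(a', c), y, ⟨ha, hc⟩, ?_⟩
    show a * t 0 (a', c) y + b * t 1 (a', c) y ≠ 0
    rw [t3 0 a' c y trivial ha hc y2, t3 1 a' c y trivial ha hc y2, ← mul_assoc, ← mul_assoc,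
      ← add_mul]
    exact mul_ne_zero (not_not.1 y1 a' ha) (left_ne_zero_of_mul_eq_one
      (e fun l q => y2 l (((hO l).leq (c l) y (hc l)).mem.1 q)))
  · refine .trans ?_ (congrArg (_ - ·) (cls_mul hD (lb_lin lO k)).symm)
    rw [sub_add_cancel_left, cls_lin lO, cls_lin lO, ← Finset.sum_neg_distrib]
    exact Finset.sum_congr rfl fun l _ => by rw [neg_smul, neg_neg]

end Vale.Agent.P270K
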