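import Vale.Agent.P285S.Stmt2

/-!
# P270K: pencils (definitions used by the final statement)
-/

namespace Vale.Agent.P270K.St

open Vale.Agent.P272.K Vale.Agent.P285.H281.FD Vale.Agent.P285Z.St

/-- `L` has two linearly independent sections -/
def Pencil (n : ℕ) {X : Type} [TopologicalSpace X] [ChartedSpace (Cm n) X] (L : Bd X) : Prop :=
  ∃ s s', IsSec n L s ∧ IsSec n L s' ∧
    ∀ a b : ℂ, a ≠ 0 ∨ b ≠ 0 → NonZero L fun i x => a * s i x + b * s' i x

end Vale.Agent.P270K.St
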