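import Vale.Agent.P270K.Mov
import Vale.Agent.P270K.Fyw
import Vale.Agent.P270G.All4

/-!
# P270K: fivefolds with a pencil
-/

open Set
open Vale.Agent.P272.K Vale.Agent.P285.H281.FD Vale.Agent.P281Z Vale.Agent.P280Z
open Vale.Agent.P277.HD (pull)
open Vale.Agent.P285Z (St.logCan St.Divisor)
open Vale.Agent.P285N Vale.Agent.P285W.J Vale.Agent.P285W.Bs
open Vale.Agent.P285N.Tp (Rd Eff Rows O1G FLC Wf)
open Vale.Agent.P285N.St (SubPair Iso)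
open Vale.Agent.P285S.B2 (Zr Nu)
open Vale.Agent.P285S.St (HasSec)
open Vale.Agent.P270G
open Vale.Agent.P270K.St (Pencil)

namespace Vale.Agent.P270K

theorem key (ν : ℕ) : ∀ d ≤ 3, ForP (d + 1) fun T _ _ _ A m N => FLC T → ∀ (L Λ : Bd A.Z.X)
    (α : T.H A.Z) (S : Set A.Z.X), ν ≤ d → Dn T A m N L Λ ν →
    ¬ Rf T A.Z (T.c1 A.Z L) ν α S := by
  induction ν with
  | zero =>
    intro d _ T hT κ ι _ A m N _ L Λ α S _ h
    exact rf0 T hT d _ _ α S ⟨h.cw.ok.conn, h.cw.ok.prj⟩ h.nu.2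
  | succ ν ih =>
    intro d hd T hT κ ι _ A m N hF L Λ α S hν h r
    obtain ⟨d, rfl⟩ : ∃ e, d = e + 1 := ⟨d - 1, by omega⟩
    obtain ⟨κ', ι', _, B, m', N', L', Λ', α', S', k1, k2⟩ := fyn d (by omega) T hT κ ι A m N L Λ ν α
      S (by omega) h r (mach _ hd T hT κ ι A m N hF L Λ _ ν.succ_pos hν h)
    exact ih d (by omega) T hT κ' ι' B m' N' hF L' Λ' α' S' (by omega) k1 k2

theorem ef_c1 {T : CT} (hT : T.OK) {n : ℕ} {Z : Mf n} [ConnectedSpace Z.X] {A B : Bd Z.X}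
    (hA : IsLB n A) (hB : IsLB n B) (h : P285S.Ef Z (cls n A - cls n B)) :
    Ef T Z (T.c1 Z A - T.c1 Z B) := by
  obtain ⟨D, t, h3, h4, h5, k⟩ := h
  refine ⟨D, t, h3, h5, (P285S.Ca.EfH.thin_nz h3 h5 k).dense.mono fun y hy => not_not.1 hy, ?_⟩
  rw [eq_sub_iff_add_eq, ← hT.c1.mul Z D B h3 hB]
  exact NzH.c1_cls hT (lb_mul h3 hB) hA (by rw [cls_mul h3 hB, h4, sub_add_cancel])

variable {T : CT} {n : ℕ} {V : Mf n} {Q : Rd V} {D : Bd V.X} {t : D.ι → V.X → ℂ} {q : ℕ}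
  {C M : Bd V.X} {w : Wf V}

/-- the null class -/
theorem nul (hT : T.OK) (h : Gq Q D t q C M) {Y : Mf n} {π : Y.X → V.X} {S : Set V.X}
    (hπ : Modif n π S) {W : Bd Y.X} (lW : IsLB n W) (bW : Bpf n W) {i j : ℕ}
    (e : P285S.Ef Y (cls n (pull π ((C.pow i).mul (M.pow j))) - cls n W)) {z : T.H Y}
    (hz : Mn T Y z) (h0 : T.int Y (T.c1 Y (pull π Q.L) * z) = 0) :
    T.int Y (T.c1 Y W * z) = 0 := by
  have := h.ok.conn
  have := hπ.conn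
  have lL := h.ok.bir.res.lbL
  have lC := h.sub.lb
  obtain ⟨a, a0, u, u1, u2⟩ := h.eff
  have l1 := lb_pow lC a
  obtain ⟨x, hx⟩ := GdfH.nz l1 u1 u2
  obtain ⟨y, rfl⟩ := hπ.surj x
  have k1 := ef_int hT ⟨_, _, hπ.hol.lb l1, hπ.hol.sec u1, (P285S.Ca.EfH.thin_nz (hπ.hol.lb l1)
    (hπ.hol.sec u1) ⟨y, hx⟩).dense.mono fun y hy => not_not.1 hy, rfl⟩ hz
  have k2 := mn_int hT ((nf_pull hT hπ.hol (nf_of hT h.ok.prj h.lb h.nef)).mn.mul hz)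
  have k3 := mn_int hT ((bf_nf hT ⟨_, lW, bW, rfl⟩).mn.mul hz)
  have l2 := lb_mul (lb_pow lC i) (lb_pow h.lb j)
  have k4 := ef_int hT (ef_c1 hT (hπ.hol.lb l2) lW e) hz
  rw [hT.c1.pull hπ.hol _ lL, Dn0H.c1_iso hT lL (lb_mul lC h.lb) h.iso, hT.c1.mul V _ _ lC h.lb,
    map_add, add_mul, map_add] at h0
  rw [hT.c1.pull hπ.hol _ l1, hT.c1.pow V _ _ lC, map_smul, smul_mul_assoc, map_smul,
    smul_eq_mul] at k1
  rw [hT.c1.pull hπ.hol _ l2, hT.c1.mul V _ _ (lb_pow lC i) (lb_pow h.lb j), hT.c1.pow V _ _ lC,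
    hT.c1.pow V _ _ h.lb, map_add, map_smul, map_smul, sub_mul, add_mul, smul_mul_assoc,
    smul_mul_assoc, map_sub, map_add, map_smul, map_smul, smul_eq_mul, smul_eq_mul] at k4
  have k5 := (mul_nonneg_iff_of_pos_left (Nat.cast_pos.2 a0)).1 k1
  have k6 : T.int Y (T.pull hπ.hol (T.c1 V C) * z) = 0 := by linarith
  have k7 : T.int Y (T.pull hπ.hol (T.c1 V M) * z) = 0 := by linarith
  rw [k6, k7] at k4
  linarith

theorem kd5 (R : Rows T) {V : Mf (4 + 1)} {Q : Rd V} {D : Bd V.X} {t : D.ι → V.X → ℂ} {q : ℕ}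
    {C M : Bd V.X} (h : Gq Q D t q C M) {i j : ℕ} (hp : Pencil 5 ((C.pow i).mul (M.pow j)))
    (h2 : ¬ Zr T V (T.c1 V Q.L ^ 2)) : Kd T V (T.c1 V Q.L + T.c1 V M) := by
  have hT := R.ok
  have hL := h.ok.bir.res.lbL
  have cV : Cp V := ⟨h.ok.conn, h.ok.prj⟩
  by_cases h3 : Zr T V (T.c1 V Q.L ^ (4 + 1))
  swap
  · exact kd3 T hT _ V _ M cV hL h.lb (h.nf R) h.nef h3
  classical
  have ex : ∃ j, Zr T V (T.c1 V Q.L ^ (j + 2 + 1)) ∨ 4 + 1 ≤ j + 2 := ⟨4, .inr (by omega)⟩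
  have ky : ∀ j ≤ Nat.find ex, ¬ Zr T V (T.c1 V Q.L ^ (j + 2)) ∧ j + 2 ≤ 4 + 1 := fun j hj => by
    induction j with
    | zero => exact ⟨h2, by omega⟩
    | succ j ih =>
      have := not_or.1 (Nat.find_min ex (Nat.lt_of_succ_le hj))
      exact ⟨this.1, by omega⟩
  obtain ⟨a1, a2⟩ := ky _ le_rfl
  have a3 : Nat.find ex + 2 ≤ 4 := by
    by_contra c
    exact a1 ((show 4 + 1 = Nat.find ex + 2 by omega) ▸ h3)
  have nu : Nu T V (T.c1 V Q.L) (Nat.find ex + 2) :=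
    ⟨a1, (Nat.find_spec ex).resolve_right (by omega)⟩
  refine (rfk _ T hT V Q D t q C M h _ (by omega) (by omega) nu).elim id ?_
  rintro ⟨V', e, B, he, α, S, pV, rf⟩
  have := cV.conn
  have := he.conn
  have l2 := lb_mul (lb_pow h.sub.lb i) (lb_pow h.lb j)
  obtain ⟨Y, u, B', W, hu, pY, lW, bW, pW, eW⟩ := mov pV (he.hol.lb l2) (pen_up he hp)
  have h4 := he.comp rem hu
  obtain ⟨κ, ι, _, A, m, N, π, S', Λ, hπ, k⟩ := dn0 4 T hT V Q D t q C M h _ Y _ _ a3 nu h4 pY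
  have := hu.conn
  have := hπ.conn
  have pA := k.cw.ok.prj
  have r1 := rfu T hT _ _ Y A.Z π S' hπ _ _ _ ⟨hu.conn, pY⟩ pA
    (rfu T hT _ _ V' Y u B' hu _ α S ⟨he.conn, pV⟩ pY rf)
  rw [← hT.c1.pull he.hol _ hL, ← hT.c1.pull hu.hol _ (he.hol.lb hL),
    ← hT.c1.pull hπ.hol _ (hu.hol.lb (he.hol.lb hL))] at r1
  have lW' := hπ.hol.lb lW
  have bW' := P285W.Un.bpf_pull hπ.hol bW
  have mΛ := (bf_nf hT ⟨_, k.fb.lb, k.fb.bpf, rfl⟩).mn.pow (4 - (Nat.find ex + 2))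
  have k3 := k.nu.2 _ mΛ
  rw [pow_succ', mul_assoc] at k3
  have e1 := P285S.Tp.ef_pull hπ eW
  rw [map_sub, ← cls_pull hπ.hol lW, ← cls_pull hπ.hol (hu.hol.lb (he.hol.lb l2))] at e1
  obtain ⟨κ', ι', _, B₁, m', N', L', Λ', α', S₁, k1, k2⟩ := fyw
    (P270F.Mg.slt_of bern (P270F.Mg.slice_of bern gen)) hT (d := 3) (ν := Nat.find ex + 1)
    (by omega) k r1 lW' bW' (pen_ne R.flc pA lW' (pen_up hπ pW))
    (nul hT h (h4.comp rem hπ) lW' bW' e1 (((nf_of hT pA k.lb k.nef).mn.pow _).mul mΛ) k3)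
  exact (key _ 3 le_rfl T hT κ' ι' B₁ m' N' R.flc L' Λ' α' S₁ (by omega) k1 k2).elim

theorem k5 (h : Gq Q D t q C M) (hn : n ≤ 5) {i j : ℕ}
    (hp : Pencil n ((C.pow i).mul (M.pow j))) : NumSemiample n Q.L := by
  rcases hn.eq_or_lt with rfl | hn
  swap
  · exact ga4 n (by omega) V Q D t q C M h
  have R := P285N.Tp.rows
  have hT := R.ok
  by_cases h2 : Zr _ V (Co.ct.c1 V Q.L ^ 2)
  · exact h.one R P285N.Tp.o1g h2
  obtain ⟨κ, ι, _, A, m, N, π, S, hπ, a, g1, g2, g3, g4⟩ :=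
    gdf_of rgq fpf _ _ hT V Q D t q C M h (kd5 R h hp h2)
  exact nsd _ hT R.flc _ V A.Z π S hπ _ A.P a ⟨h.ok.conn, h.ok.prj⟩ g1.ok.prj h.ok.bir.res.lbL
    g1.ok.lb (P285S.Tp.As.sae5 _ κ ι A m N g1 ⟨le_rfl, g2⟩) g3 g4

theorem pn1 (hQ : Q.Ok) (hw : IsKahler w) (h : SubPair n Q.E Q.s D t q C) (hM : IsLB n M)
    (hn : Nef w M) (hi : Iso n Q.L (C.mul M)) (hd : n ≤ 5) (hC : HasSec n C) {i j : ℕ}
    (hp : Pencil n ((C.pow i).mul (M.pow j))) : NumSemiample n Q.L :=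
  k5 ⟨hQ, h, hC, hM, (Tp.nefp n n V V (fun x => x) _ contMDiff_id hM).1 w hw hn, hi⟩ hd hp

theorem pn0 (hc : ConnectedSpace V.X) (hP : V.Prj) (hw : IsKahler w) (hD : St.Divisor n D t)
    (hq : 1 ≤ q) (hk : Klt n q D t) (hM : IsLB n M) (hm : Nef w M)
    (hn : Nef w ((St.logCan n q D).mul M)) (hd : n ≤ 5) (hC : HasSec n (St.logCan n q D))
    {i j : ℕ} (hp : Pencil n (((St.logCan n q D).pow i).mul (M.pow j))) :
    NumSemiample n ((St.logCan n q D).mul M) := by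
  have hL := lb_mul (lb_mul (lb_pow (P277Z.Slc.isLB_can (n := n)) q) hD.lb) hM
  obtain ⟨⟨A, N, S, hQ⟩, k⟩ := Tp.smo n V w _ hc hP hw hL hn
  exact pn1 hQ hw (k D t q hD hq hk) hM hm (Tp.iso_refl hL) hd hC hp

end Vale.Agent.P270K
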